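import Vale.Agent.P261Z.P.Defs

/-!
# P261Z, block N6: from an action on points to the torsor structure `RT`
-/

noncomputable section

namespace P261.RT

open scoped TensorProduct
open P261.PC P261.P Algebra.TensorProduct

variable {p : ℕ} [hp : Fact p.Prime]

/-- ring maps between algebras over the prime field are linear -/
def alg {S S' : Type} [CommRing S] [CommRing S'] [Algebra (ZMod p) S] [Algebra (ZMod p) S']
    (f : S →+* S') : S →ₐ[ZMod p] S' :=
  { f with
    commutes' := fun r =>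
      RingHom.congr_fun (RingHom.ext_zmod (f.comp (algebraMap _ S)) (algebraMap _ S')) r }

@[simp] theorem alg_apply {S S' : Type} [CommRing S] [CommRing S'] [Algebra (ZMod p) S]
    [Algebra (ZMod p) S'] (f : S →+* S') (x : S) : alg (p := p) f x = f x := rfl

variable {R AA : Type} [CommRing R] [CommRing AA] [Algebra R AA] [Algebra (ZMod p) R]
  [Algebra (ZMod p) AA] [IsScalarTower (ZMod p) R AA]

/-- The points killed by `p ^ M` act on the points of `T`. -/
structure TS (H : GF p) (v : R) (T0 T1 T : Subalgebra R AA) (M A N : ℕ) : Type 1 where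
  /-- the action -/
  mv : ∀ {U : Type} [CommRing U] [Algebra (ZMod p) U], H.Pt U → (T →ₐ[ZMod p] U) → T →ₐ[ZMod p] U
  nat : ∀ {U U' : Type} [CommRing U] [Algebra (ZMod p) U] [CommRing U'] [Algebra (ZMod p) U']
    (g : U →ₐ[ZMod p] U') (τ : H.Pt U) (k : T →ₐ[ZMod p] U), p ^ M • τ = 0 →
    g.comp (mv τ k) = mv (H.map g τ) (g.comp k)
  zero : ∀ {U : Type} [CommRing U] [Algebra (ZMod p) U] (k : T →ₐ[ZMod p] U), mv 0 k = k
  add : ∀ {U : Type} [CommRing U] [Algebra (ZMod p) U] (τ τ' : H.Pt U) (k : T →ₐ[ZMod p] U),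
    p ^ M • τ = 0 → p ^ M • τ' = 0 → mv (τ + τ') k = mv τ' (mv τ k)
  bot : ∀ {U : Type} [CommRing U] [Algebra (ZMod p) U] (τ : H.Pt U) (k : T →ₐ[ZMod p] U),
    p ^ M • τ = 0 → ∀ x : T, (x : AA) ∈ T0 → mv τ k x = k x
  fix : ∀ {U : Type} [CommRing U] [Algebra (ZMod p) U] (τ : H.Pt U) (k : T →ₐ[ZMod p] U),
    p ^ A • τ = 0 → ∀ x : T, (x : AA) ∈ T1 → mv τ k x = k x
  free : ∀ {U : Type} [CommRing U] [Algebra (ZMod p) U] (τ : H.Pt U) (k : T →ₐ[ZMod p] U),
    p ^ M • τ = 0 → mv τ k = k → τ = 0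
  div : ∀ {U : Type} [CommRing U] [Algebra (ZMod p) U] (k k' : T →ₐ[ZMod p] U),
    (∀ x : T, (x : AA) ∈ T1 → k x = k' x) → ∃ τ : H.Pt U, p ^ A • τ = 0 ∧ k = mv τ k' ∧
      ∀ Λ : Subring U, (∀ x : T, IsIntegral R (x : AA) → k x ∈ Λ ∧ k' x ∈ Λ) →
        ∀ f, H.lift A (fun _ : Fin 1 => τ) f ∈ Λ
  loss : ∀ {S U : Type} [CommRing S] [Algebra (ZMod p) S] [CommRing U] [Algebra (ZMod p) U]
    (g : S →ₐ[ZMod p] U) (τ : H.Pt S) (k : T →ₐ[ZMod p] U) (Λ : Subring U), p ^ M • τ = 0 →
    (∀ s, g s ∈ Λ) → (∀ x : T, IsIntegral R (x : AA) → k x ∈ Λ) → ∀ x : T, IsIntegral R (x : AA) →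
    k (algebraMap R T v ^ N) * mv (H.map g τ) k x ∈ Λ
  /-- the retraction -/
  π : T →+ T
  π_one : π 1 = 1
  π_mem : ∀ x, (π x : AA) ∈ T1
  π_mul : ∀ y x : T, (y : AA) ∈ T1 → π (y * x) = y * π x
  π_loss : ∀ x : T, IsIntegral R (x : AA) → π x ∈ pole p v N T

variable {H : GF p} {v : R} {T0 T1 T : Subalgebra R AA} {M A N : ℕ}

/-- `κ` intertwines the action of `τ` with the action of `n τ` -/
def TS.Sym (D : TS H v T0 T1 T M A N) (κ : AA →+* AA) (n : ℕ) : Prop :=
  ∃ κ' : T →ₐ[ZMod p] T, (∀ x, (κ' x : AA) = κ x) ∧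
    ∀ (U : Type) [CommRing U] [Algebra (ZMod p) U] (τ : H.Pt U) (k : T →ₐ[ZMod p] U),
      p ^ M • τ = 0 → (D.mv τ k).comp κ' = D.mv (n • τ) (k.comp κ')

theorem exists_W (hle : T1 ≤ T) (π : T →+ T)
    (hπ : ∀ y x : T, (y : AA) ∈ T1 → π (y * x) = y * π x) :
    ∃ (W : Type) (_ : CommRing W) (_ : Algebra (ZMod p) W) (l r : T →ₐ[ZMod p] W) (P : W →+ T),
      (∀ x : T, (x : AA) ∈ T1 → l x = r x) ∧ (∀ a b, P (l a * r b) = π a * b) ∧
      (∀ Q : AddSubgroup W, (∀ a b, l a * r b ∈ Q) → ∀ w, w ∈ Q) ∧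
      ∀ (U : Type) [CommRing U] [Algebra (ZMod p) U] (k k' : T →ₐ[ZMod p] U),
        (∀ x : T, (x : AA) ∈ T1 → k x = k' x) →
        ∃ Θ : W →ₐ[ZMod p] U, Θ.comp l = k ∧ Θ.comp r = k' := by
  let _ : Algebra T1 T := (Subalgebra.inclusion hle).toRingHom.toAlgebra
  let l : T →+* T ⊗[T1] T := includeLeftRingHom
  let r : T →+* T ⊗[T1] T := (includeRight : T →ₐ[T1] T ⊗[T1] T).toRingHom
  have e : ∀ a b, l a * r b = a ⊗ₜ b := fun a b => by
    show (a ⊗ₜ[T1] (1 : T)) * ((1 : T) ⊗ₜ[T1] b) = _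
    rw [tmul_mul_tmul, mul_one, one_mul]
  refine ⟨T ⊗[T1] T, inferInstance, (l.comp (algebraMap (ZMod p) T)).toAlgebra, ?_⟩
  let _ : Algebra (ZMod p) (T ⊗[T1] T) := (l.comp (algebraMap (ZMod p) T)).toAlgebra
  refine ⟨alg l, alg r, TensorProduct.liftAddHom (AddMonoidHom.mul.comp π) fun y a b => ?_,
    fun x hx => ?_, fun a b => ?_, fun Q hQ w => ?_, fun U _ _ k k' hk => ?_⟩
  · show π (algebraMap T1 T y * a) * b = π a * (algebraMap T1 T y * b)
    rw [hπ _ _ y.2]
    ring
  · exact ((includeLeft : T →ₐ[T1] T ⊗[T1] T).commutes ⟨x, hx⟩).trans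
      ((includeRight : T →ₐ[T1] T ⊗[T1] T).commutes ⟨x, hx⟩).symm
  · rw [alg_apply, alg_apply, e, TensorProduct.liftAddHom_tmul]
    rfl
  · induction w with
    | zero => exact zero_mem _
    | tmul a b => exact e a b ▸ hQ a b
    | add a b ha hb => exact add_mem ha hb
  · let _ : Algebra T1 U := ((k : T →+* U).comp (algebraMap T1 T)).toAlgebra
    let Θ : T ⊗[T1] T →ₐ[T1] U := lift { (k : T →+* U) with commutes' := fun _ => rfl }
      { (k' : T →+* U) with commutes' := fun y => (hk _ y.2).symm } fun _ _ => Commute.all _ _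
    refine ⟨alg Θ.toRingHom, AlgHom.ext fun a => ?_, AlgHom.ext fun a => ?_⟩
    · show k a * k' 1 = k a
      rw [map_one, mul_one]
    · show k 1 * k' a = k' a
      rw [map_one, one_mul]

theorem tmul_mul_mem {S : Type} [CommRing S] [Algebra (ZMod p) S] {P P' : Submodule (ZMod p) T}
    {x : T} (h : ∀ y ∈ P, x * y ∈ P') {e : S ⊗[ZMod p] T} (he : e ∈ P.baseChange S) :
    (1 ⊗ₜ x) * e ∈ P'.baseChange S := by
  obtain ⟨e, rfl⟩ := he
  induction e with
  | zero => simp
  | tmul s y =>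
    rw [LinearMap.baseChange_tmul, tmul_mul_tmul]
    exact Submodule.tmul_mem_baseChange_of_mem _ (h _ y.2)
  | add a b ha hb => rw [map_add, mul_add]; exact add_mem ha hb

/-- multipliers of a subgroup -/
def mult {U : Type} [CommRing U] (E : AddSubgroup U) : Subring U where
  carrier := {w | ∀ e ∈ E, w * e ∈ E}
  mul_mem' ha hb e he := mul_assoc _ _ e ▸ ha _ (hb e he)
  one_mem' e he := (one_mul e).symm ▸ he
  add_mem' ha hb e he := (add_mul _ _ e).symm ▸ add_mem (ha e he) (hb e he)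
  zero_mem' e _ := (zero_mul e).symm ▸ zero_mem E
  neg_mem' ha e he := (neg_mul _ e).symm ▸ neg_mem (ha e he)

namespace TS

variable (D : TS H v T0 T1 T M A N) {S : Type} [CommRing S] [Algebra (ZMod p) S]

/-- the coaction -/
def al (τ : H.Pt S) : T →ₐ[ZMod p] S ⊗[ZMod p] T := D.mv (H.map includeLeft τ) includeRight

theorem comp_al {U : Type} [CommRing U] [Algebra (ZMod p) U] (g : S ⊗[ZMod p] T →ₐ[ZMod p] U)
    {τ : H.Pt S} (hτ : p ^ M • τ = 0) :
    g.comp (D.al τ) = D.mv (H.map (g.comp includeLeft) τ) (g.comp includeRight) := by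
  rw [al, D.nat _ _ _ (by rw [← map_nsmul, hτ, map_zero]), H.map_comp]

theorem cmp {κ : AA →+* AA} {n : ℕ} (h : D.Sym κ n) {τ : H.Pt S} (hτ : p ^ M • τ = 0) :
    Cmp κ (D.al τ) (D.al (n • τ)) := fun x y hy => by
  obtain ⟨κ', h1, h2⟩ := h
  obtain rfl : y = κ' x := Subtype.ext (hy.trans (h1 x).symm)
  have e1 := D.comp_al (map (AlgHom.id _ S) κ') (τ := n • τ) (by rw [smul_comm, hτ, smul_zero])
  rw [map_comp_includeLeft, map_comp_includeRight, AlgHom.comp_id, map_nsmul,
    ← h2 _ _ _ (by rw [← map_nsmul, hτ, map_zero])] at e1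
  refine Eq.trans (congrArg (inc S T) (AlgHom.congr_fun e1 x).symm) ?_
  rw [AlgHom.comp_apply]
  induction D.al (n • τ) x with
  | zero => simp
  | tmul s t => simp [inc, h1]
  | add a b ha hb => simp only [map_add, ha, hb]

variable [Pf p AA]

theorem nonempty_RT {G : Type} {Φ : G → AA →+* AA} {a : ℕ → AA →+* AA} {h : ℕ} (hA : A ≤ M)
    (hle : T1 ≤ T) {vi : T} (hvi : algebraMap R T v * vi = 1) (h1 : ∀ g, D.Sym (Φ g) 1)
    (h2 : D.Sym (fr p AA ^ h) p) (h3 : ∀ s, s % p = 1 → D.Sym (a s) s) :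
    Nonempty (RT H Φ a v T0 T1 T h M A N) := by
  have hAM : ∀ {U : Type} [CommRing U] [Algebra (ZMod p) U] {τ : H.Pt U}, p ^ A • τ = 0 →
      p ^ M • τ = 0 := fun h => by
    obtain ⟨d, rfl⟩ := Nat.exists_eq_add_of_le' hA
    rw [pow_add, mul_smul, h, smul_zero]
  have hm : ∀ {U U' : Type} [CommRing U] [Algebra (ZMod p) U] [CommRing U'] [Algebra (ZMod p) U']
      (g : U →ₐ[ZMod p] U') {τ : H.Pt U} {n : ℕ}, n • τ = 0 → n • H.map g τ = 0 := fun g _ _ h => by
    rw [← map_nsmul, h, map_zero]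
  obtain ⟨W, _, _, l, r, P, hlr, hP, hW, hΘ⟩ := exists_W (p := p) hle D.π D.π_mul
  obtain ⟨δ, hδ, hl, hΛ⟩ := D.div l r hlr
  let P' : W →ₗ[ZMod p] T := P.toZModLinearMap p
  have h0 : ∀ x : T, x ∈ pole p v 0 T ↔ IsIntegral R (x : AA) := fun x => by
    rw [mem_pole, pow_zero, one_mul]
  refine ⟨{ al := D.al
            nat := fun f τ hτ x => ?_
            zero := fun x => ?_
            add := fun {S} _ _ τ τ' hτ hτ' x => ?_
            bot := fun τ hτ x hx => D.bot _ _ (hm _ hτ) x hx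
            loss := fun {S} _ _ τ hτ x hx => ?_
            eqv := fun τ hτ g => by simpa only [one_smul] using D.cmp (h1 g) hτ
            fro := fun τ hτ => D.cmp h2 hτ
            cen := fun τ hτ s hs => D.cmp (h3 s hs) hτ
            gam := P' ∘ₗ (H.lift A fun _ : Fin 1 => δ).toLinearMap
            gam_one := ?_
            gam_loss := fun f => ?_
            gam_eqv := fun {S} _ _ τ hτ f => ?_
            fix := fun τ hτ x hx => D.fix _ _ (hm _ hτ) x hx
            inv := fun x hx => ?_ }⟩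
  · have e1 := D.comp_al (map f (AlgHom.id _ T)) hτ
    rw [map_comp_includeLeft, map_comp_includeRight, AlgHom.comp_id, H.map_comp] at e1
    refine Eq.trans ?_ (AlgHom.congr_fun e1 x)
    rw [AlgHom.comp_apply]
    induction D.al τ x with
    | zero => simp
    | tmul s t => simp
    | add a b ha hb => simp only [map_add, ha, hb]
  · rw [al, map_zero, D.zero]; rfl
  · have e1 := D.comp_al (lift includeLeft (D.al τ) fun _ _ => Commute.all _ _) hτ'
    rw [lift_comp_includeLeft, lift_comp_includeRight', al, ← D.add _ _ _ (hm _ hτ) (hm _ hτ'),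
      ← map_add] at e1
    refine Eq.trans (AlgHom.congr_fun e1 x).symm ?_
    rw [AlgHom.comp_apply]
    induction D.al τ' x with
    | zero => simp
    | tmul s t => exact (Algebra.smul_def s _).symm
    | add a b ha hb => simp only [map_add, ha, hb]
  · have e1 := D.loss includeLeft τ includeRight
      (mult ((pole p v 0 T).baseChange S).toAddSubgroup) hτ
      (fun s e he => Algebra.smul_def s e ▸ Submodule.smul_mem _ s he)
      (fun y hy e he => tmul_mul_mem (fun z hz => (h0 _).2 (hy.mul ((h0 _).1 hz))) he) x hx 1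
      (Submodule.tmul_mem_baseChange_of_mem 1 ((h0 _).2 isIntegral_one))
    have e2 := tmul_mul_mem (x := vi ^ N) (P' := pole p v N T) (fun z hz => by
      have : algebraMap R AA v ^ N * (vi ^ N * z : T) = z := congrArg Subtype.val
        (show algebraMap R T v ^ N * (vi ^ N * z) = z by
          rw [← mul_assoc, ← mul_pow, hvi, one_pow, one_mul])
      rw [mem_pole, this]
      exact (h0 _).1 hz) e1
    rwa [mul_one, ← mul_assoc, includeRight_apply, tmul_mul_tmul, ← mul_pow, mul_comm vi, hvi,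
      one_pow, one_mul, ← one_def, one_mul] at e2
  · have := hP 1 1
    rw [map_one, map_one, mul_one, mul_one, D.π_one] at this
    exact (congrArg P (map_one (H.lift A fun _ : Fin 1 => δ))).trans this
  · let E := AddSubgroup.closure
      {w | ∃ a b : T, IsIntegral R (a : AA) ∧ IsIntegral R (b : AA) ∧ l a * r b = w}
    have hE : ∀ a b : T, IsIntegral R (a : AA) → IsIntegral R (b : AA) → l a * r b ∈ mult E :=
      fun a b ha hb e he => (AddSubgroup.closure_le (E.comap (AddMonoidHom.mulLeft (l a * r b)))).2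
        (by
          rintro _ ⟨a', b', ha', hb', rfl⟩
          exact AddSubgroup.subset_closure ⟨a * a', b * b', ha.mul ha', hb.mul hb', by
            rw [map_mul, map_mul, mul_mul_mul_comm]; rfl⟩) he
    have e1 := hΛ (mult E) (fun x hx => ⟨by simpa using hE x 1 hx isIntegral_one,
      by simpa using hE 1 x isIntegral_one hx⟩) f 1
      (AddSubgroup.subset_closure ⟨1, 1, isIntegral_one, isIntegral_one, by simp⟩)
    rw [mul_one] at e1
    refine (AddSubgroup.closure_le ((pole p v N T).toAddSubgroup.comap P)).2 ?_ e1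
    rintro _ ⟨a, b, ha, hb, rfl⟩
    have := (mem_pole.1 (D.π_loss a ha)).mul hb
    rw [mul_assoc] at this
    show P (l a * r b) ∈ pole p v N T
    rw [hP]
    exact this
  · let j : W →ₐ[ZMod p] S ⊗[ZMod p] W := includeRight
    let τ' : H.Pt (S ⊗[ZMod p] W) := H.map includeLeft τ
    have hτ' : p ^ A • τ' = 0 := hm _ hτ
    have e0 : (map (AlgHom.id _ S) r).comp (D.al τ) = D.mv τ' (j.comp r) := by
      rw [D.comp_al _ (hAM hτ), map_comp_includeLeft, map_comp_includeRight, AlgHom.comp_id]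
    obtain ⟨Θ, e1, e2⟩ := hΘ _ (j.comp l) (D.mv τ' (j.comp r)) fun x hx => by
      rw [D.fix _ _ hτ' x hx, AlgHom.comp_apply, AlgHom.comp_apply, hlr x hx]
    have e3 : D.mv (τ' + H.map Θ δ) (j.comp r) = D.mv (H.map j δ) (j.comp r) := by
      rw [D.add _ _ _ (hAM hτ') (hm _ (hAM hδ)), ← e2, ← D.nat _ _ _ (hAM hδ),
        ← D.nat _ _ _ (hAM hδ), ← hl, e1]
    have e4 : H.map Θ δ = H.map j δ - τ' := by
      have h4 : p ^ M • (τ' + H.map Θ δ) = 0 := by
        rw [smul_add, hAM hτ', hm _ (hAM hδ), add_zero]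
      have h5 : p ^ M • (H.map j δ - (τ' + H.map Θ δ)) = 0 := by
        rw [smul_sub, h4, hm _ (hAM hδ), sub_zero]
      have := D.free _ _ h5 (by rw [← D.add _ _ _ h4 h5, add_sub_cancel, e3])
      rw [← sub_sub, sub_eq_zero] at this
      exact this.symm
    have e5 : Θ.comp (H.lift A fun _ : Fin 1 => δ) =
        (map (AlgHom.id _ S) (H.lift A fun _ : Fin 1 => δ)).comp (H.sh A τ) :=
      H.ext A _ _ fun i => by
        rw [H.map_comp, H.map_comp, H.lift_u _ _ fun _ => hδ, GF.sh, H.lift_u _ _ fun _ => by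
          rw [smul_sub, hm _ hτ, hm _ (H.u_tor A 1 0), sub_zero], map_sub, ← H.map_comp,
          ← H.map_comp, map_comp_includeLeft, map_comp_includeRight, AlgHom.comp_id, H.map_comp,
          H.lift_u _ _ fun _ => hδ, e4]
    have e6 : ∀ w, D.al τ (P w) = P'.lTensor S (Θ w) := hW
      (AddMonoidHom.eqLocus ((D.al τ).toRingHom.toAddMonoidHom.comp P)
        ((P'.lTensor S).toAddMonoidHom.comp Θ.toRingHom.toAddMonoidHom)) fun a b => by
      show D.al τ (P _) = P'.lTensor S (Θ _)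
      rw [hP, map_mul, map_mul, show Θ (l a) = 1 ⊗ₜ l a from AlgHom.congr_fun e1 a,
        show Θ (r b) = map (AlgHom.id _ S) r (D.al τ b) from AlgHom.congr_fun (e2.trans e0.symm) b,
        show D.al τ (D.π a) = 1 ⊗ₜ D.π a from D.fix _ _ (hm _ hτ) _ (D.π_mem a)]
      induction D.al τ b with
      | zero => simp
      | tmul s t => simp [P', hP]
      | add a b ha hb => simp only [map_add, mul_add, ha, hb]
    refine (e6 _).trans ((congrArg (P'.lTensor S) (AlgHom.congr_fun e5 f)).trans ?_)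
    rw [AlgHom.comp_apply]
    induction H.sh A τ f with
    | zero => simp
    | tmul s t => simp
    | add a b ha hb => simp only [map_add, ha, hb]
  · have e1 := D.comp_al (lift (H.lift A fun _ : Fin 1 => δ) r fun _ _ => Commute.all _ _)
      (hAM (H.u_tor A 1 0))
    rw [lift_comp_includeLeft, lift_comp_includeRight', H.lift_u _ _ fun _ => hδ, ← hl] at e1
    have e2 := AlgHom.congr_fun e1 x
    rw [AlgHom.comp_apply, hx, lift_tmul] at e2
    have e3 := hP 1 x
    rw [map_one, ← map_one (H.lift A fun _ : Fin 1 => δ), e2, D.π_one, one_mul, ← mul_one (l x),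
      ← map_one r, hP, mul_one] at e3
    exact e3 ▸ D.π_mem x

end TS

end P261.RT
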