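import Vale.Agent.P261Z.RT.Nil

/-!
# P261Z, block N6: addition of points over a variable structure map; truncated homomorphisms
-/

set_option linter.unusedSectionVars false

noncomputable section

namespace P261.RT

open MvPowerSeries Vale.Agent.P261Z.Ev P261.Ig Vale.Agent.P217 Vale.Agent.P251.F

variable {R U U' : Type} [CommRing R] [CommRing U] [CommRing U'] (m : Ideal R)
  [IsNoetherianRing R] [IsAdicComplete m R] (F : Law R)

/-- admissible coordinates -/
def NH (φ : R →+* U) (a : U) : Prop := letI := φ.toAlgebra; IsN m a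

/-- the sum of two coordinates -/
def ad (φ : R →+* U) (a b : U) : U := letI := φ.toAlgebra; evO m ![a, b] F.ps

/-- evaluation of a series -/
def e1 (φ : R →+* U) (a : U) (s : PowerSeries R) : U := letI := φ.toAlgebra; evO1 m a s

variable {m F} {φ : R →+* U} {a b d : U}

theorem NH.map (ha : NH m φ a) (Ψ : U →+* U') : NH m (Ψ.comp φ) (Ψ a) := by
  let _ := φ.toAlgebra
  let _ := (Ψ.comp φ).toAlgebra
  exact IsN.map (RingHom.id R) Ψ (fun _ => rfl) (fun _ hr => Ideal.le_radical hr) ha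

theorem NH.nil (ha : IsNilpotent a) : NH m φ a := by
  let _ := φ.toAlgebra
  exact IsN.of_nilpotent ha

theorem NH.ad (ha : NH m φ a) (hb : NH m φ b) : NH m φ (ad m F φ a b) := by
  let _ := φ.toAlgebra
  exact ((⟨a, ha⟩ : Pt U m F) + ⟨b, hb⟩).isN

theorem NH.alg [Algebra R U] (ha : IsN m a) : NH m (algebraMap R U) a := by
  unfold NH
  convert ha
  exact Algebra.algebra_ext _ _ fun _ => rfl

theorem e1_alg [Algebra R U] (s : PowerSeries R) : e1 m (algebraMap R U) a s = evO1 m a s := by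
  unfold e1
  congr 2

theorem map_ad (ha : NH m φ a) (hb : NH m φ b) (Ψ : U →+* U') :
    Ψ (ad m F φ a b) = ad m F (Ψ.comp φ) (Ψ a) (Ψ b) := by
  let _ := φ.toAlgebra
  let _ := (Ψ.comp φ).toAlgebra
  exact congrArg Pt.val (map_add (Pt.mapA (m := m) (F := F)
    ({ Ψ with commutes' := fun _ => rfl } : U →ₐ[R] U')) ⟨a, ha⟩ ⟨b, hb⟩)

theorem map_e1 (ha : NH m φ a) (Ψ : U →+* U') (s : PowerSeries R) :
    Ψ (e1 m φ a s) = e1 m (Ψ.comp φ) (Ψ a) s := by
  let _ := φ.toAlgebra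
  let _ := (Ψ.comp φ).toAlgebra
  exact alg_evO ({ Ψ with commutes' := fun _ => rfl } : U →ₐ[R] U') (fun _ => ha) s

theorem ad_zero (ha : NH m φ a) : ad m F φ a 0 = a := by
  let _ := φ.toAlgebra
  exact congrArg Pt.val (add_zero (⟨a, ha⟩ : Pt U m F))

theorem ad_assoc (ha : NH m φ a) (hb : NH m φ b) (hd : NH m φ d) :
    ad m F φ (ad m F φ a b) d = ad m F φ a (ad m F φ b d) := by
  let _ := φ.toAlgebra
  exact congrArg Pt.val (add_assoc (⟨a, ha⟩ : Pt U m F) ⟨b, hb⟩ ⟨d, hd⟩)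

theorem ad_cancel (ha : NH m φ a) (hb : NH m φ b) (h : ad m F φ a b = a) : b = 0 := by
  let _ := φ.toAlgebra
  exact congrArg Pt.val (add_eq_left.1 (Pt.ext h : (⟨a, ha⟩ : Pt U m F) + ⟨b, hb⟩ = ⟨a, ha⟩))

theorem ad_mem (Λ : Subring U) (h : ∀ r, φ r ∈ Λ) (ha : a ∈ Λ) (hb : b ∈ Λ) :
    ad m F φ a b ∈ Λ := by
  let _ := φ.toAlgebra
  exact evO_mem { Λ with algebraMap_mem' := h } (Fin.forall_fin_two.2 ⟨ha, hb⟩) _

theorem exists_sub (ha : NH m φ a) (hb : NH m φ b) : ∃ z, NH m φ z ∧ ad m F φ b z = a ∧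
    ∀ Λ : Subring U, (∀ r, φ r ∈ Λ) → a ∈ Λ → b ∈ Λ → z ∈ Λ := by
  let _ := φ.toAlgebra
  obtain ⟨z, hz⟩ : ∃ z : Pt U m F, z = ⟨a, ha⟩ - ⟨b, hb⟩ := ⟨_, rfl⟩
  have h1 : (⟨b, hb⟩ : Pt U m F) + z = ⟨a, ha⟩ := by rw [hz, add_sub_cancel]
  refine ⟨z.val, z.isN, congrArg Pt.val h1, fun Λ h ha' hb' => ?_⟩
  let Λ' : Subalgebra R U := { Λ with algebraMap_mem' := h }
  have h2 : z ∈ Pt.sub m F Λ' := by
    rw [hz]
    exact (Pt.sub m F Λ').sub_mem ha' hb'
  exact h2

theorem ad_nil (ha : IsNilpotent a) (hb : IsNilpotent b) :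
    ad m F φ a b = evN φ ![a, b] F.ps := by
  let _ := φ.toAlgebra
  exact evO_eq_evN (Fin.forall_fin_two.2 ⟨ha, hb⟩) _

theorem e1_nil (ha : IsNilpotent a) (s : PowerSeries R) : e1 m φ a s = evN1 φ a s := by
  let _ := φ.toAlgebra
  exact evO_eq_evN (fun _ => ha) _

/-- homomorphisms into a twist of the law -/
theorem e1_ad (ha : NH m φ a) (hb : NH m φ b) {σ : R →+* R} {s : PowerSeries R}
    (hs : IsHom F.toFG (F.map σ).toFG s) (ha' : NH m (φ.comp σ) (e1 m φ a s))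
    (hb' : NH m (φ.comp σ) (e1 m φ b s)) :
    e1 m φ (ad m F φ a b) s = ad m F (φ.comp σ) (e1 m φ a s) (e1 m φ b s) := by
  have h := @map_evO R R U U _ _ _ _ (φ.comp σ).toAlgebra φ.toAlgebra (Fin 2) m m _ _ _ _ _
    ![e1 m φ a s, e1 m φ b s] σ (RingHom.id U) (fun _ => rfl) (Fin.forall_fin_two.2 ⟨ha', hb'⟩)
  let _ := φ.toAlgebra
  exact (congrArg Pt.val (map_add (Pt.hom hs) (⟨a, ha⟩ : Pt U m F) ⟨b, hb⟩)).trans
    (h (Fin.forall_fin_two.2 ⟨evO1_isN ha hs.1, evO1_isN hb hs.1⟩) F.ps).symm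

theorem NH.e1 (ha : NH m φ a) {s : PowerSeries R} (hs : PowerSeries.constantCoeff s = 0) :
    NH m φ (e1 m φ a s) := by
  let _ := φ.toAlgebra
  exact evO1_isN ha hs

theorem e1_mult_zero : e1 m φ a (multSeries F.toFG 0) = 0 := by
  let _ := φ.toAlgebra
  exact map_zero (evO1 m a)

theorem e1_mult_succ (ha : NH m φ a) (k : ℕ) :
    e1 m φ a (multSeries F.toFG (k + 1)) = ad m F φ (e1 m φ a (multSeries F.toFG k)) a := by
  let _ := φ.toAlgebra
  have h := congrArg Pt.val (succ_nsmul (⟨a, ha⟩ : Pt U m F) k)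
  rwa [Pt.val_add, Pt.val_nsmul, Pt.val_nsmul] at h

/-! ### truncated homomorphisms -/

variable {B B' P : Type} [CommRing B] [CommRing B'] [CommRing P] {e : B →+* B'} {ι : B →+* U}
  {f : PowerSeries B'} {fb : PowerSeries B} {n N : ℕ}

theorem evN_hom {F H : FormalGroup B} {f : PowerSeries B} (hf : PowerSeries.constantCoeff f = 0)
    (ha : IsNilpotent a) (hb : IsNilpotent b) :
    evN ι ![a, b] (PowerSeries.subst F.toPowerSeries f) =
      evN1 ι (evN ι ![a, b] F.toPowerSeries) f ∧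
    evN ι ![a, b] (subst ![(PowerSeries.subst (X 0 : MvPowerSeries (Fin 2) B) f :
      MvPowerSeries (Fin 2) B), (PowerSeries.subst (X 1 : MvPowerSeries (Fin 2) B) f :
      MvPowerSeries (Fin 2) B)] H.toPowerSeries) =
      evN ι ![evN1 ι a f, evN1 ι b f] H.toPowerSeries := by
  have h : ∀ i, IsNilpotent (![a, b] i) := Fin.forall_fin_two.2 ⟨ha, hb⟩
  refine ⟨evN_subst1 h F.zero_constantCoeff f, ?_⟩
  rw [evN_subst h (Fin.forall_fin_two.2
    ⟨PowerSeries.constantCoeff_subst_eq_zero (constantCoeff_X _) _ hf,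
      PowerSeries.constantCoeff_subst_eq_zero (constantCoeff_X _) _ hf⟩)]
  congr 2
  funext i
  fin_cases i
  · exact (evN_subst1 h (constantCoeff_X _) f).trans (by rw [evN_X h]; rfl)
  · exact (evN_subst1 h (constantCoeff_X _) f).trans (by rw [evN_X h]; rfl)

theorem pow_of_mem {σ : Type} {y : σ → U} (hn : Ideal.span (Set.range y) ^ n = ⊥) {z : U}
    (hz : z ∈ Ideal.span (Set.range y)) : z ^ n = 0 :=
  Ideal.mem_bot.1 (hn ▸ Ideal.pow_mem_pow hz n)

variable (he : Function.Injective e) (h0 : PowerSeries.constantCoeff fb = 0)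
  (hfb : ∀ d < n, e (PowerSeries.coeff d fb) = PowerSeries.coeff d f)

include hfb in
theorem evN1_fb {ι' : B' →+* U} (ha : a ^ n = 0) : evN1 (ι'.comp e) a fb = evN1 ι' a f := by
  rw [← evN1_map ⟨n, ha⟩]
  exact evN1_trunc ha fun d hd => (PowerSeries.coeff_map _ _ _).trans (hfb d hd)

include he h0 hfb in
/-- a truncated homomorphism is additive on nilpotent elements -/
theorem fb_add {F H : Law B} (hf : IsHom (F.map e).toFG (H.map e).toFG f) (ha : a ^ N = 0)
    (hb : b ^ N = 0) (hn : 2 * N ≤ n) : evN1 ι (evN ι ![a, b] F.ps) fb =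
      evN ι ![evN1 ι a fb, evN1 ι b fb] H.ps := by
  have h1 := evN_hom (ι := ι) (F := F.toFG) (H := H.toFG) h0 ⟨N, ha⟩ ⟨N, hb⟩
  rw [← h1.1, ← h1.2]
  refine evN_congr he (fun U _ ι' y hy hn => ?_) (Fin.forall_fin_two.2 ⟨⟨N, ha⟩, N, hb⟩)
    (span_pair_pow ha hb hn)
  obtain ⟨a, b, rfl⟩ : ∃ a b, y = ![a, b] := ⟨y 0, y 1, funext fun i => by fin_cases i <;> rfl⟩
  have h2 := evN_hom (ι := ι'.comp e) (F := F.toFG) (H := H.toFG) (a := a) (b := b) h0 (hy 0) (hy 1)
  have h3 := evN_hom (ι := ι') (F := (F.map e).toFG) (H := (H.map e).toFG) (a := a) (b := b) hf.1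
    (hy 0) (hy 1)
  have h4 : ∀ i, IsNilpotent (![evN1 ι' a f, evN1 ι' b f] i) := Fin.forall_fin_two.2
    ⟨evN_nil (fun _ => hy 0) hf.1, evN_nil (fun _ => hy 1) hf.1⟩
  refine h2.1.trans (Eq.trans ?_ h2.2.symm)
  rw [evN1_fb hfb (pow_of_mem hn (evN_mem hy F.toFG.zero_constantCoeff)),
    evN1_fb hfb (a := a) (pow_of_mem hn (mem_sp _ 0)),
    evN1_fb hfb (a := b) (pow_of_mem hn (mem_sp _ 1)), ← evN_map hy e]
  exact h3.1.symm.trans ((congrArg _ hf.2).trans (h3.2.trans (evN_map h4 e _)))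

include he hfb in
/-- compatibility with a twist -/
theorem fb_twist {κ : B →+* B} {κ' : B' →+* B'} (hκ : ∀ x, e (κ x) = κ' (e x)) {s : PowerSeries B}
    (hs : PowerSeries.constantCoeff s = 0)
    (hf : PowerSeries.map κ' f = f.subst (PowerSeries.map e s)) (ha : a ^ n = 0) :
    evN1 (ι.comp κ) a fb = evN1 ι (evN1 ι a s) fb := by
  rw [← evN1_map ⟨n, ha⟩, ← evN1_subst ⟨n, ha⟩ hs]
  refine evN_congr he (fun U _ ι' y hy hn => ?_) (fun _ => ⟨n, ha⟩) (span_one_pow ha)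
  have h1 : y () ^ n = 0 := pow_of_mem hn (mem_sp y ())
  show evN1 _ (y ()) _ = evN1 _ (y ()) _
  rw [evN1_map (hy ()), evN1_subst (hy ()) hs, evN1_fb hfb (evN1_pow h1 hs),
    show (ι'.comp e).comp κ = (ι'.comp κ').comp e from RingHom.ext fun x => congrArg ι' (hκ x),
    evN1_fb hfb h1, ← evN1_map (hy ()) κ', hf, evN1_subst (hy ()) ((congrArg e hs).trans (map_zero e)),
    evN1_map (hy ())]

theorem evN1_rescale (ha : IsNilpotent a) (u : B) (g : PowerSeries B) :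
    evN1 ι a (PowerSeries.rescale u g) = evN1 ι (ι u * a) g :=
  eq_evN (fun _ => (Commute.all _ _).isNilpotent_mul_left ha) ((evN1 ι a).comp
    (PowerSeries.rescale u)) (fun r => by
      have : PowerSeries.rescale u (PowerSeries.C r) = PowerSeries.C r := by
        ext d
        rw [PowerSeries.coeff_rescale, PowerSeries.coeff_C]
        split_ifs with h <;> simp [h]
      exact (congrArg _ this).trans (evN1_C r))
    (fun _ => (congrArg (evN1 ι a) (PowerSeries.rescale_X u)).trans (by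
      rw [map_mul, evN1_C, evN1_X ha])) g

/-- the inverse of a series whose linear coefficient `u` becomes a unit -/
theorem exists_inv (O : Subring B) (h0 : PowerSeries.constantCoeff fb = 0)
    (hO : ∀ d, PowerSeries.coeff d fb ∈ O) {ui : B} (hu : PowerSeries.coeff 1 fb * ui = 1) :
    ∃ g : PowerSeries B, PowerSeries.constantCoeff g = 0 ∧ fb.subst g = PowerSeries.X ∧
      g.subst fb = PowerSeries.X ∧ ∀ (U : Type) [CommRing U] (ι : B →+* U) (t : U) (Λ : Subring U),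
        IsNilpotent t → (∀ x ∈ O, ι x ∈ Λ) → ι ui ^ 2 * t ∈ Λ → evN1 ι t g ∈ Λ := by
  have hU : IsUnit (PowerSeries.coeff 1 fb) := IsUnit.of_mul_eq_one _ hu
  have e1 := fb.subst_substInvOfIsUnit_left h0 hU
  refine ⟨_, fb.constantCoeff_substInvOfIsUnit hU, fb.subst_substInvOfIsUnit_right h0 hU, e1,
    fun U _ ι t Λ ht hΛ h2 => ?_⟩
  set u := PowerSeries.coeff 1 fb with hud
  let ft : PowerSeries O := PowerSeries.mk fun d => if d = 1 then 1 else
    ⟨u ^ (d - 2) * PowerSeries.coeff d fb, mul_mem (pow_mem (hO 1) _) (hO d)⟩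
  have h1 : PowerSeries.constantCoeff ft = 0 := Subtype.ext (by
    simp [ft, h0])
  have h3 : IsUnit (PowerSeries.coeff 1 ft) := by simp [ft]
  have h4 : PowerSeries.rescale u fb = PowerSeries.C (u ^ 2) * PowerSeries.map O.subtype ft := by
    ext d
    rw [PowerSeries.coeff_rescale, PowerSeries.coeff_C_mul, PowerSeries.coeff_map]
    obtain _ | _ | d := d
    · simp [ft, h0]
    · simp [ft, ← hud, pow_two]
    · simp [ft, pow_add]
      ring
  have ht' : IsNilpotent (ι ui ^ 2 * t) := (Commute.all _ _).isNilpotent_mul_left ht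
  set s := evN1 (ι.comp O.subtype) (ι ui ^ 2 * t) (ft.substInvOfIsUnit h3) with hs
  have hs' : IsNilpotent s := evN_nil (fun _ => ht') (ft.constantCoeff_substInvOfIsUnit h3)
  have h5 : evN1 ι (ι u * s) fb = t := by
    rw [← evN1_rescale hs', h4, map_mul, evN1_C, evN1_map hs', hs,
      ← evN1_subst ht' (ft.constantCoeff_substInvOfIsUnit h3),
      ft.subst_substInvOfIsUnit_right h1 h3, evN1_X ht', ← mul_assoc, map_pow, ← mul_pow,
      ← map_mul, hu, map_one, one_pow, one_mul]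
  have h6 : IsNilpotent (ι u * s) := (Commute.all _ _).isNilpotent_mul_left hs'
  rw [← h5, ← evN1_subst h6 h0, e1, evN1_X h6]
  exact mul_mem (hΛ _ (hO 1)) (evN1_mem ht' Λ h2 fun d => hΛ _ (Subtype.property _))

end P261.RT
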