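import Vale.Agent.P261Z.PB.Mon

/-!
# P261Z, block N6: monomial bases for subalgebras of one ring
-/

noncomputable section

namespace P261.RT

open P261.PB Finset

variable {R AA U : Type} [CommRing R] [CommRing AA] [CommRing U] [Algebra R AA] {c n : ℕ}

/-- `T` is free over `T1` on the truncated monomials in `x` -/
structure MonS (T1 T : Subalgebra R AA) (n : ℕ) (x : Fin c → AA) : Prop where
  le : T1 ≤ T
  pos : 0 < n
  mem : ∀ i, x i ∈ T
  pw : ∀ i, x i ^ n ∈ T1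
  sp : ∀ z ∈ T, ∃ r : (Fin c → Fin n) → AA, (∀ α, r α ∈ T1) ∧ z = ∑ α, r α * mn x α
  ind : ∀ r : (Fin c → Fin n) → AA, (∀ α, r α ∈ T1) → ∑ α, r α * mn x α = 0 → ∀ α, r α = 0

theorem coe_sum (T : Subalgebra R AA) (x : Fin c → T) (r : (Fin c → Fin n) → T) :
    ((∑ α, r α * mn x α : T) : AA) = ∑ α, (r α : AA) * mn (fun i => (x i : AA)) α := by
  show T.val _ = _
  simp only [map_sum, map_mul, map_mn]
  rfl

namespace MonS

variable {T1 T : Subalgebra R AA} {x : Fin c → AA} (h : MonS T1 T n x)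

include h

theorem ext {T' : Subalgebra R AA} (hle : T ≤ T') {k k' : T' →+* U}
    (h1 : ∀ t : T', (t : AA) ∈ T1 → k t = k' t)
    (h2 : ∀ i, k ⟨x i, hle (h.mem i)⟩ = k' ⟨x i, hle (h.mem i)⟩) (t : T') (ht : (t : AA) ∈ T) :
    k t = k' t := by
  obtain ⟨r, hr, e⟩ := h.sp _ ht
  have e1 : t = ∑ α, (⟨r α, hle (h.le (hr α))⟩ : T') * mn (fun i => ⟨x i, hle (h.mem i)⟩) α :=
    Subtype.ext (e.trans (coe_sum T' (fun i => ⟨x i, hle (h.mem i)⟩)
      fun α => ⟨r α, hle (h.le (hr α))⟩).symm)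
  rw [e1]
  simp only [map_sum, map_mul, map_mn, h2]
  exact sum_congr rfl fun α _ => by rw [h1 _ (hr α)]

theorem isMon : letI := (Subalgebra.inclusion h.le).toRingHom.toAlgebra
    IsMon T1 n fun i => (⟨x i, h.mem i⟩ : T) :=
  letI := (Subalgebra.inclusion h.le).toRingHom.toAlgebra
  { pos := h.pos
    pw := fun i => ⟨⟨_, h.pw i⟩, rfl⟩
    ind := Fintype.linearIndependent_iff.2 fun g hg α => Subtype.ext
      (h.ind (fun α => g α) (fun α => (g α).2) ((coe_sum T (fun i => ⟨x i, h.mem i⟩)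
        fun α => Subalgebra.inclusion h.le (g α)).symm.trans (congrArg Subtype.val hg)) α)
    sp := fun z _ => by
      obtain ⟨r, hr, e⟩ := h.sp _ z.2
      have e1 : z = ∑ α, (⟨r α, hr α⟩ : T1) • mn (fun i => (⟨x i, h.mem i⟩ : T)) α :=
        Subtype.ext (e.trans (coe_sum T (fun i => ⟨x i, h.mem i⟩)
          fun α => ⟨r α, h.le (hr α)⟩).symm)
      rw [e1]
      exact sum_mem fun α _ => Submodule.smul_mem _ _ (Submodule.subset_span ⟨α, rfl⟩) }

theorem exists_hom (k : T →+* U) (x' : Fin c → U) (hx : ∀ i, k ⟨x i, h.mem i⟩ ^ n = x' i ^ n) :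
    ∃ k' : T →+* U, (∀ t : T, (t : AA) ∈ T1 → k' t = k t) ∧ ∀ i, k' ⟨x i, h.mem i⟩ = x' i := by
  let _ := (Subalgebra.inclusion h.le).toRingHom.toAlgebra
  let _ : Algebra T1 U := (k.comp (algebraMap T1 T)).toAlgebra
  obtain ⟨f, hf⟩ := h.isMon.exists_hom x' fun i a ha =>
    (congrArg k ha).trans ((map_pow k _ n).trans (hx i))
  exact ⟨f, fun t ht => f.commutes ⟨t, ht⟩, hf⟩

theorem exists_ret : ∃ π : T →+ T, π 1 = 1 ∧ (∀ z, (π z : AA) ∈ T1) ∧
    (∀ y z : T, (y : AA) ∈ T1 → π (y * z) = y * π z) ∧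
    ∀ (z : T) (r : (Fin c → Fin n) → AA), (∀ α, r α ∈ T1) → (z : AA) = ∑ α, r α * mn x α →
      (π z : AA) = r fun _ => ⟨0, h.pos⟩ := by
  let _ := (Subalgebra.inclusion h.le).toRingHom.toAlgebra
  refine ⟨(algebraMap T1 T).toAddMonoidHom.comp h.isMon.ret.toAddMonoidHom,
    (congrArg (algebraMap T1 T) h.isMon.ret_one).trans (map_one _), fun z => (h.isMon.ret z).2,
    fun y z hy => (congrArg (algebraMap T1 T) (h.isMon.ret.map_smul ⟨y, hy⟩ z)).trans
      (map_mul (algebraMap T1 T) _ _), fun z r hr e => ?_⟩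
  have e1 : z = ∑ α, (⟨r α, hr α⟩ : T1) • mn (fun i => (⟨x i, h.mem i⟩ : T)) α :=
    Subtype.ext (e.trans (coe_sum T (fun i => ⟨x i, h.mem i⟩) fun α => ⟨r α, h.le (hr α)⟩).symm)
  rw [e1]
  exact congrArg Subtype.val (h.isMon.ret_sum fun α => ⟨r α, hr α⟩)

end MonS

end P261.RT
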