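import Vale.Agent.P261Z.RT.PH
import Vale.Agent.P261Z.RT.Abs
import Vale.Agent.P261Z.RT.Ad
import Vale.Agent.P261Z.RT.Mns

/-!
# P261Z, block N6: the action of the points of the law of height `h` by translation
-/

set_option linter.unusedSectionVars false

noncomputable section

namespace P261.RT

open P261.PB P261.PC P261.Ig Vale.Agent.P217 Vale.Agent.P251.F

variable {p h c : ℕ} [hp : Fact p.Prime] {R AA : Type} [CommRing R] [CommRing AA] [Algebra R AA]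
  [Algebra (ZMod p) R] [Algebra (ZMod p) AA] [IsScalarTower (ZMod p) R AA] {m : Ideal R}
  [IsNoetherianRing R] [IsAdicComplete m R] {F : Law R}

theorem isN_sub (T : Subalgebra R AA) {y : T} (hy : IsN m (y : AA)) : IsN m y := by
  have : Algebra.IsIntegral R (Algebra.adjoin R {(y : AA)}) :=
    Algebra.IsIntegral.adjoin fun _ h => h ▸ hy.int
  have hle : Algebra.adjoin R {(y : AA)} ≤ T := Algebra.adjoin_le fun _ h => h ▸ y.2
  have h1 := (isN_iff (Algebra.adjoin R {(y : AA)})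
    ⟨y, Algebra.self_mem_adjoin_singleton R _⟩).1 hy
  have h2 := fun x => (Algebra.IsIntegral.isIntegral (R := R) x).map (Subalgebra.inclusion hle)
  exact ⟨h2 ⟨y, Algebra.self_mem_adjoin_singleton R _⟩, JB_map (RingHom.id R)
    ((Subalgebra.inclusion hle).codRestrict (integralClosure R T) h2).toRingHom
    (fun _ => rfl) (fun _ hr => Ideal.le_radical hr) h1⟩

variable (p h m F) in
/-- the data for the translation action -/
structure CD (v : R) (T0 T1 T : Subalgebra R AA) (M A N : ℕ) (x : Fin c → AA)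
    (fb g : PowerSeries T0) : Prop where
  hh : h ≠ 0
  le : A ≤ M
  isN : ∀ i, IsN m (x i)
  mon0 : MonS T0 T ((p ^ h) ^ M) x
  mon1 : MonS T1 T ((p ^ h) ^ A) x
  mon2 : ∃ n, MonS T0 T1 n fun i => evO1 m (x i) (multSeries F.toFG (p ^ A))
  fb0 : PowerSeries.constantCoeff fb = 0
  g0 : PowerSeries.constantCoeff g = 0
  fg : fb.subst g = (PowerSeries.X : PowerSeries T0)
  gf : g.subst fb = (PowerSeries.X : PowerSeries T0)
  add : ∀ (U : Type) [CommRing U] [Algebra (ZMod p) U] (ι : T0 →+* U) (a b : U),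
    a ^ (p ^ h) ^ M = 0 → b ^ (p ^ h) ^ M = 0 →
    evN1 ι (evN (ι.comp (algebraMap R T0)) ![a, b] F.ps) fb =
      evN (algebraMap (ZMod p) U) ![evN1 ι a fb, evN1 ι b fb] (HL p h (ZMod p)).ps
  fb_int : ∀ d, IsIntegral R ((PowerSeries.coeff d fb : T0) : AA)
  g_mem : ∃ w : T0, algebraMap R T0 v ^ 2 * w = 1 ∧ ∀ (U : Type) [CommRing U] (ι : T0 →+* U) (t : U)
    (Λ : Subring U), IsNilpotent t → (∀ z : T0, IsIntegral R (z : AA) → ι z ∈ Λ) →
    ι w * t ∈ Λ → evN1 ι t g ∈ Λ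
  loss0 : ∀ z ∈ T, IsIntegral R z → ∃ r : (Fin c → Fin ((p ^ h) ^ M)) → AA,
    (∀ α, r α ∈ T0 ∧ IsIntegral R (r α)) ∧ algebraMap R AA v ^ N * z = ∑ α, r α * mn x α
  loss1 : ∀ z ∈ T, IsIntegral R z → ∃ r : (Fin c → Fin ((p ^ h) ^ A)) → AA,
    (∀ α, r α ∈ T1 ∧ IsIntegral R (r α)) ∧ algebraMap R AA v ^ N * z = ∑ α, r α * mn x α

namespace CD

variable {v : R} {T0 T1 T : Subalgebra R AA} {M A N : ℕ} {x : Fin c → AA} {fb g : PowerSeries T0}
  (D : CD p h m F v T0 T1 T M A N x fb g) {H : GF p} (C : GC h c H)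
  {U U' : Type} [CommRing U] [Algebra (ZMod p) U] [CommRing U'] [Algebra (ZMod p) U']

/-- the generators -/
def xT (i : Fin c) : T := ⟨x i, D.mon0.mem i⟩

/-- the restriction of a point to the bottom ring -/
def io (k : T →ₐ[ZMod p] U) : T0 →+* U :=
  (k : T →+* U).comp (Subalgebra.inclusion D.mon0.le).toRingHom

/-- the restriction of a point to the base -/
def ph (k : T →ₐ[ZMod p] U) : R →+* U := (k : T →+* U).comp (algebraMap R T)

theorem ch : Ch p U := ⟨by rw [← map_natCast (algebraMap (ZMod p) U), ZMod.natCast_self, map_zero]⟩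

theorem nh (k : T →ₐ[ZMod p] U) (i : Fin c) : NH m (ph k) (k (D.xT i)) :=
  (NH.alg (isN_sub T (D.isN i))).map (k : T →+* U)

include D

theorem g_nil {ι : T0 →+* U} {t : U} (ht : IsNilpotent t) : IsNilpotent (evN1 ι t g) :=
  evN_nil (fun _ => ht) D.g0

theorem fb_g {ι : T0 →+* U} {t : U} (ht : IsNilpotent t) : evN1 ι (evN1 ι t g) fb = t := by
  rw [← evN1_subst ht D.g0, D.fg, evN1_X ht]

theorem g_fb {ι : T0 →+* U} {t : U} (ht : IsNilpotent t) : evN1 ι (evN1 ι t fb) g = t := by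
  rw [← evN1_subst ht D.fb0, D.gf, evN1_X ht]

theorem g_zero {ι : T0 →+* U} : evN1 ι 0 g = 0 :=
  zero_dvd_iff.1 (evN1_dvd IsNilpotent.zero D.g0)

theorem tor {n : ℕ} {τ : H.Pt U} : p ^ n • τ = 0 ↔ ∀ i, (C.co τ i).val ^ (p ^ h) ^ n = 0 := by
  rw [← C.co.map_eq_zero_iff, map_nsmul, funext_iff]
  exact forall_congr' fun i => PH1.tor D.hh n _

theorem g_add {ι : T0 →+* U} {a b : PH1 p h U} (ha : p ^ M • a = 0) (hb : p ^ M • b = 0) :
    evN1 ι (a + b).val g =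
      ad m F (ι.comp (algebraMap R T0)) (evN1 ι a.val g) (evN1 ι b.val g) := by
  have h1 := D.g_nil (ι := ι) a.nil
  have h2 := D.g_nil (ι := ι) b.nil
  rw [ad_nil h1 h2, ← D.g_fb (ι := ι) (evN_nil (Fin.forall_fin_two.2 ⟨h1, h2⟩)
    F.toFG.zero_constantCoeff), D.add _ _ _ _ (evN1_pow ((PH1.tor D.hh _ _).1 ha) D.g0)
    (evN1_pow ((PH1.tor D.hh _ _).1 hb) D.g0), D.fb_g a.nil, D.fb_g b.nil, Pt.val_add,
    evO_eq_evN (Fin.forall_fin_two.2 ⟨a.nil, b.nil⟩)]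

theorem g_smul {ι : T0 →+* U} {a : PH1 p h U} (ha : p ^ M • a = 0) (s : ℕ) :
    evN1 ι (s • a).val g =
      e1 m (ι.comp (algebraMap R T0)) (evN1 ι a.val g) (multSeries F.toFG s) := by
  induction s with
  | zero => rw [zero_smul, e1_mult_zero, Pt.val_zero, D.g_zero]
  | succ s ih =>
    rw [succ_nsmul, D.g_add (by rw [smul_comm, ha, smul_zero]) ha, ih,
      e1_mult_succ (NH.nil (D.g_nil a.nil))]

theorem ad_pow {φ : R →+* U} {a z : U} (ha : NH m φ a) (hz : NH m φ z) (n : ℕ) :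
    ad m F φ a z ^ (p ^ h) ^ n =
      ad m F ((@fr p _ U _ ch ^ (h * n)).comp φ) (a ^ (p ^ h) ^ n) (z ^ (p ^ h) ^ n) := by
  have := ch (p := p) (U := U)
  simpa only [fr_pow_apply, pow_mul p] using map_ad (F := F) ha hz (fr p U ^ (h * n))

theorem nh_pow {φ : R →+* U} {a : U} (ha : NH m φ a) (n : ℕ) :
    NH m ((@fr p _ U _ ch ^ (h * n)).comp φ) (a ^ (p ^ h) ^ n) := by
  have := ch (p := p) (U := U)
  simpa only [fr_pow_apply, pow_mul p] using ha.map (fr p U ^ (h * n))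

theorem exists_mv {τ : H.Pt U} (hτ : p ^ M • τ = 0) (k : T →ₐ[ZMod p] U) :
    ∃ k' : T →+* U, (∀ t : T, (t : AA) ∈ T0 → k' t = k t) ∧
      ∀ i, k' (D.xT i) = ad m F (ph k) (k (D.xT i)) (evN1 (D.io k) (C.co τ i).val g) :=
  D.mon0.exists_hom (k : T →+* U) _ fun i => by
    rw [D.ad_pow (D.nh k i) (NH.nil (D.g_nil (PH1.nil _))),
      evN1_pow ((D.tor C).1 hτ i) D.g0, ad_zero (D.nh_pow (D.nh k i) M)]
    rfl

open Classical in
/-- the translation -/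
def mv (τ : H.Pt U) (k : T →ₐ[ZMod p] U) : T →ₐ[ZMod p] U :=
  if hτ : p ^ M • τ = 0 then alg (D.exists_mv C hτ k).choose else k

variable {τ τ' : H.Pt U}

theorem mv_bot (hτ : p ^ M • τ = 0) (k : T →ₐ[ZMod p] U) (t : T) (ht : (t : AA) ∈ T0) :
    D.mv C τ k t = k t := by
  rw [mv, dif_pos hτ]
  exact (D.exists_mv C hτ k).choose_spec.1 t ht

theorem mv_x (hτ : p ^ M • τ = 0) (k : T →ₐ[ZMod p] U) (i : Fin c) : D.mv C τ k (D.xT i) =
    ad m F (ph k) (k (D.xT i)) (evN1 (D.io k) (C.co τ i).val g) := by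
  rw [mv, dif_pos hτ]
  exact (D.exists_mv C hτ k).choose_spec.2 i

theorem io_eq {k k' : T →ₐ[ZMod p] U} (h1 : ∀ t : T, (t : AA) ∈ T0 → k t = k' t) :
    D.io k = D.io k' ∧ (ph k : R →+* U) = ph k' :=
  ⟨RingHom.ext fun t => h1 _ t.2, RingHom.ext fun r => h1 _ (T0.algebraMap_mem r)⟩

theorem ext {k k' : T →ₐ[ZMod p] U} (h1 : ∀ t : T, (t : AA) ∈ T0 → k t = k' t)
    (h2 : ∀ i, k (D.xT i) = k' (D.xT i)) : k = k' :=
  AlgHom.ext fun t => D.mon0.ext le_rfl (k := (k : T →+* U)) (k' := (k' : T →+* U)) h1 h2 t t.2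

theorem torM (hτ : p ^ A • τ = 0) : p ^ M • τ = 0 := by
  obtain ⟨d, hd⟩ := Nat.exists_eq_add_of_le' D.le
  rw [hd, pow_add, mul_smul, hτ, smul_zero]

theorem tor' {n : ℕ} (hτ : n • τ = 0) (i : Fin c) : n • C.co τ i = 0 := by
  rw [← Pi.smul_apply, ← map_nsmul, hτ, map_zero, Pi.zero_apply]

/-- the effect on values of homomorphisms -/
theorem mv_e1 (hτ : p ^ M • τ = 0) (k : T →ₐ[ZMod p] U) (i : Fin c) {σ : R →+* R}
    {s : PowerSeries R} (hs : IsHom F.toFG (F.map σ).toFG s) {t : T}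
    (ht : (t : AA) = evO1 m (x i) s) (h1 : NH m ((ph k).comp σ) (k t)) : D.mv C τ k t =
      ad m F ((ph k).comp σ) (k t) (e1 m (ph k) (evN1 (D.io k) (C.co τ i).val g) s) := by
  have h0 := isN_sub T (y := D.xT i) (D.isN i)
  obtain rfl : t = evO1 m (D.xT i) s := Subtype.ext (ht.trans (alg_evO T.val (fun _ => h0) s).symm)
  have h2 : ∀ k : T →ₐ[ZMod p] U, k (evO1 m (D.xT i) s) = e1 m (ph k) (k (D.xT i)) s := fun k => by
    rw [← e1_alg]
    exact map_e1 (NH.alg h0) (k : T →+* U) s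
  have h3 := D.g_nil (ι := D.io k) (PH1.nil (C.co τ i))
  rw [h2] at h1
  rw [h2, h2, (D.io_eq (D.mv_bot C hτ k)).2, D.mv_x C hτ, e1_ad (D.nh k i) (NH.nil h3) hs h1]
  rw [e1_nil h3]
  exact NH.nil (evN_nil (fun _ => h3) hs.1)

theorem mv_mult (hτ : p ^ M • τ = 0) (k : T →ₐ[ZMod p] U) (i : Fin c) (s : ℕ) {t : T}
    (ht : (t : AA) = evO1 m (x i) (multSeries F.toFG s)) : D.mv C τ k t =
      ad m F (ph k) (k t) (evN1 (D.io k) (C.co (s • τ) i).val g) := by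
  rw [D.mv_e1 C hτ k i (σ := RingHom.id R) (F.map_id.symm ▸ isHom_multSeries F.toFG s) ht
    ((NH.alg (isN_sub T (ht ▸ evO1_isN (D.isN i) (constantCoeff_multSeries _ _)))).map
      (k : T →+* U)), map_nsmul, Pi.smul_apply, D.g_smul (D.tor' C hτ i)]
  rfl

theorem div (k k' : T →ₐ[ZMod p] U) (hk : ∀ t : T, (t : AA) ∈ T1 → k t = k' t) :
    ∃ τ : H.Pt U, p ^ A • τ = 0 ∧ k = D.mv C τ k' ∧
      ∀ Λ : Subring U, (∀ x : T, IsIntegral R (x : AA) → k x ∈ Λ ∧ k' x ∈ Λ) →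
        ∀ f, H.lift A (fun _ : Fin 1 => τ) f ∈ Λ := by
  obtain ⟨n, h2⟩ := D.mon2
  have h0 : ∀ t : T, (t : AA) ∈ T0 → k t = k' t := fun t ht => hk t (h2.le ht)
  choose z hz e hΛ using fun i => exists_sub (F := F) ((D.io_eq h0).2 ▸ D.nh k i) (D.nh k' i)
  have h1 : ∀ i, z i ^ (p ^ h) ^ A = 0 := fun i =>
    ad_cancel (F := F) (D.nh_pow (D.nh k' i) A) (D.nh_pow (hz i) A) (by
      rw [← D.ad_pow (D.nh k' i) (hz i), e, ← map_pow, ← map_pow, hk _ (D.mon1.pw i)])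
  have h3 : ∀ i, evN1 (D.io k') (z i) fb ^ (p ^ h) ^ A = 0 := fun i => evN1_pow (h1 i) D.fb0
  obtain ⟨τ, hτ⟩ := C.co.surjective fun i => ⟨_, IsN.of_nilpotent ⟨_, h3 i⟩⟩
  have h4 : p ^ A • τ = 0 := (D.tor C).2 fun i => by rw [hτ]; exact h3 i
  refine ⟨τ, h4, D.ext (fun t ht => (h0 t ht).trans (D.mv_bot C (D.torM h4) _ t ht).symm)
    fun i => ?_, fun Λ h5 f => ?_⟩
  · rw [D.mv_x C (D.torM h4), hτ, D.g_fb ⟨_, h1 i⟩, e]
  · have h9 : ∀ r, algebraMap (ZMod p) U r ∈ Λ := fun r => by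
      obtain ⟨n, rfl⟩ := ZMod.intCast_surjective r
      rw [map_intCast]
      exact intCast_mem Λ n
    let Λ' : Subalgebra (ZMod p) U := { Λ with algebraMap_mem' := h9 }
    have h6 : ∀ i, evN1 (D.io k') (z i) fb ∈ Λ' := fun i => evN1_mem ⟨_, h1 i⟩ Λ
      (hΛ i Λ (fun r => (h5 _ isIntegral_algebraMap).2) (h5 _ (D.isN i).int).1
        (h5 _ (D.isN i).int).2) fun d => (h5 _ (D.fb_int d)).2
    obtain ⟨τ', hτ'⟩ := (C.co (S := Λ')).surjective fun i =>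
      ⟨⟨_, h6 i⟩, IsN.of_nilpotent ⟨_, Subtype.ext (h3 i)⟩⟩
    have h7 : p ^ A • τ' = 0 := (D.tor C).2 fun i => by rw [hτ']; exact Subtype.ext (h3 i)
    have h8 : H.lift A (fun _ : Fin 1 => τ) = Λ'.val.comp (H.lift A fun _ : Fin 1 => τ') :=
      H.ext A _ _ fun j => by
        rw [H.map_comp, H.lift_u _ _ fun _ => h4, H.lift_u _ _ fun _ => h7]
        exact C.co.injective (funext fun i => Pt.ext (by rw [C.co_map, hτ, hτ']; rfl))
    rw [h8]
    exact Subtype.property _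

theorem loss {S : Type} [CommRing S] [Algebra (ZMod p) S] (j : S →ₐ[ZMod p] U) (τ : H.Pt S)
    (k : T →ₐ[ZMod p] U) (Λ : Subring U) (hτ : p ^ M • τ = 0) (h1 : ∀ s, j s ∈ Λ)
    (h2 : ∀ x : T, IsIntegral R (x : AA) → k x ∈ Λ) (z : T) (hz : IsIntegral R (z : AA)) :
    k (algebraMap R T v) ^ (2 * (c * (p ^ h) ^ M) + N) * D.mv C (H.map j τ) k z ∈ Λ := by
  have hτ' : p ^ M • H.map j τ = 0 := by rw [← map_nsmul, hτ, map_zero]
  obtain ⟨w, hw, hg⟩ := D.g_mem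
  have hV : k (algebraMap R T v) ^ 2 ∈ Λ := pow_mem (h2 _ isIntegral_algebraMap) 2
  let σ : Fin c → U := fun i => D.io k w * (C.co (H.map j τ) i).val
  have hσ : ∀ i a, σ i ^ a ∈ Pol Λ (k (algebraMap R T v) ^ 2) ((p ^ h) ^ M) := fun i a => by
    rcases le_total a ((p ^ h) ^ M) with ha | ha
    · refine Pol_mono hV ha ?_
      have e := congrArg (D.io k) hw
      rw [map_mul, map_pow, map_one] at e
      rw [mem_Pol, ← mul_pow, ← mul_assoc, show k (algebraMap R T v) ^ 2 * D.io k w = 1 from e,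
        one_mul, C.co_map]
      exact pow_mem (h1 _) a
    · rw [mul_pow, pow_eq_zero_of_le ha ((D.tor C).1 hτ' i), mul_zero]
      exact zero_mem _
  let Λ' := (MvPolynomial.eval₂Hom Λ.subtype σ).range
  have h3 : ∀ e ∈ Λ', e ∈ Pol Λ (k (algebraMap R T v) ^ 2) (c * (p ^ h) ^ M) := by
    rintro _ ⟨P, rfl⟩
    rw [MvPolynomial.coe_eval₂Hom, MvPolynomial.eval₂_eq']
    refine sum_mem fun d _ => ?_
    rw [mem_Pol, mul_left_comm, mul_comm c, pow_mul, ← Fin.prod_const, ← Finset.prod_mul_distrib]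
    exact mul_mem (Subtype.property _) (prod_mem fun i _ => hσ i _)
  have h4 : ∀ e ∈ Λ, e ∈ Λ' := fun e he => ⟨MvPolynomial.C ⟨e, he⟩, MvPolynomial.eval₂Hom_C _ _ _⟩
  obtain ⟨r, hr, e⟩ := D.loss0 z z.2 hz
  have e1 : algebraMap R T v ^ N * z = ∑ α, (⟨r α, D.mon0.le (hr α).1⟩ : T) * mn D.xT α :=
    Subtype.ext (e.trans (coe_sum T D.xT fun α => ⟨r α, D.mon0.le (hr α).1⟩).symm)
  rw [pow_add, pow_mul, mul_assoc, ← D.mv_bot C hτ' k _ (T0.algebraMap_mem v), ← map_pow _ _ N,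
    ← map_mul, e1, D.mv_bot C hτ' k _ (T0.algebraMap_mem v), map_sum]
  refine h3 _ (sum_mem fun α _ => ?_)
  rw [map_mul, map_mn, D.mv_bot C hτ' k _ (hr α).1]
  refine mul_mem (h4 _ (h2 _ (hr α).2)) (mn_mem (fun i => ?_) α)
  rw [D.mv_x C hτ']
  exact ad_mem Λ' (fun r => h4 _ (h2 _ isIntegral_algebraMap)) (h4 _ (h2 _ (D.isN i).int))
    (hg _ _ _ _ (PH1.nil _) (fun z hz => h4 _ (h2 _ hz))
      ⟨MvPolynomial.X i, MvPolynomial.eval₂Hom_X' _ _ _⟩)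

/-- the action on points -/
def ts {N' : ℕ} (hN : 2 * (c * (p ^ h) ^ M) + N ≤ N') : TS H v T0 T1 T M A N' where
  mv := D.mv C
  nat j τ k hτ := by
    have hτ' : p ^ M • H.map j τ = 0 := by rw [← map_nsmul, hτ, map_zero]
    refine D.ext (fun t ht => ?_) fun i => ?_
    · rw [AlgHom.comp_apply, D.mv_bot C hτ _ t ht, D.mv_bot C hτ' _ t ht, AlgHom.comp_apply]
    · rw [AlgHom.comp_apply, D.mv_x C hτ, D.mv_x C hτ', C.co_map]
      refine (map_ad (D.nh k i) (NH.nil (D.g_nil (PH1.nil _))) j.toRingHom).trans ?_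
      rw [map_evN1 (PH1.nil _) j.toRingHom g]
      rfl
  zero k := D.ext (D.mv_bot C (smul_zero _) k) fun i => by
    rw [D.mv_x C (smul_zero _), map_zero, Pi.zero_apply, Pt.val_zero, D.g_zero, ad_zero (D.nh k i)]
  add τ τ' k hτ hτ' := by
    have h1 : p ^ M • (τ + τ') = 0 := by rw [smul_add, hτ, hτ', add_zero]
    refine D.ext (fun t ht => ?_) fun i => ?_
    · rw [D.mv_bot C h1 _ t ht, D.mv_bot C hτ' _ t ht, D.mv_bot C hτ _ t ht]
    · rw [D.mv_x C h1, D.mv_x C hτ', D.mv_x C hτ, (D.io_eq (D.mv_bot C hτ k)).1,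
        (D.io_eq (D.mv_bot C hτ k)).2, ad_assoc (D.nh k i) (NH.nil (D.g_nil (PH1.nil _)))
          (NH.nil (D.g_nil (PH1.nil _))), map_add, Pi.add_apply,
        D.g_add (D.tor' C hτ i) (D.tor' C hτ' i)]
      rfl
  bot τ k hτ := D.mv_bot C hτ k
  fix τ k hτ t ht := by
    obtain ⟨n, h2⟩ := D.mon2
    refine h2.ext D.mon1.le (k := (D.mv C τ k).toRingHom) (k' := k.toRingHom)
      (D.mv_bot C (D.torM hτ) k) (fun i => (D.mv_mult C (D.torM hτ) k i (p ^ A) rfl).trans ?_) t ht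
    rw [hτ, map_zero, Pi.zero_apply, Pt.val_zero, D.g_zero]
    exact ad_zero ((NH.alg (isN_sub T (evO1_isN (D.isN i) (constantCoeff_multSeries _ _)))).map
      k.toRingHom)
  free τ k hτ e := C.co.injective (funext fun i => Pt.ext (by
    have h1 := D.mv_x C hτ k i
    rw [e] at h1
    rw [← D.fb_g (ι := D.io k) (PH1.nil (C.co τ i)),
      ad_cancel (D.nh k i) (NH.nil (D.g_nil (PH1.nil _))) h1.symm, map_zero]
    exact zero_dvd_iff.1 (evN1_dvd IsNilpotent.zero D.fb0)))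
  div := D.div C
  loss j τ k Λ hτ h1 h2 z hz := by
    rw [map_pow]
    exact Pol_mono (h2 _ isIntegral_algebraMap) hN (D.loss C j τ k Λ hτ h1 h2 z hz)
  π := D.mon1.exists_ret.choose
  π_one := D.mon1.exists_ret.choose_spec.1
  π_mem := D.mon1.exists_ret.choose_spec.2.1
  π_mul := D.mon1.exists_ret.choose_spec.2.2.1
  π_loss z hz := by
    obtain ⟨r, hr, e⟩ := D.loss1 z z.2 hz
    obtain ⟨d, rfl⟩ := Nat.exists_eq_add_of_le' ((Nat.le_add_left _ _).trans hN)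
    have h1 := D.mon1.exists_ret.choose_spec.2.2.2 (algebraMap R T v ^ N * z) r
      (fun α => (hr α).1) e
    rw [D.mon1.exists_ret.choose_spec.2.2.1 _ _ (pow_mem (T1.algebraMap_mem v) N)] at h1
    rw [P.mem_pole, pow_add, mul_assoc]
    have h2 := (hr fun _ => ⟨0, D.mon1.pos⟩).2
    rw [← h1] at h2
    exact (isIntegral_algebraMap.pow d).mul h2

theorem sym {N' : ℕ} (hN : 2 * (c * (p ^ h) ^ M) + N ≤ N') {κ : AA →+* AA} {n : ℕ}
    (h0 : ∀ t ∈ T0, κ t ∈ T0) (h1 : ∀ t ∈ T, κ t ∈ T)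
    (h2 : ∀ κ' : T →ₐ[ZMod p] T, (∀ t, (κ' t : AA) = κ t) → ∀ (U : Type) [CommRing U]
      [Algebra (ZMod p) U] (τ : H.Pt U) (k : T →ₐ[ZMod p] U), p ^ M • τ = 0 → ∀ i,
      D.mv C τ k (κ' (D.xT i)) = ad m F (ph (k.comp κ')) (k (κ' (D.xT i)))
        (evN1 (D.io (k.comp κ')) (C.co (n • τ) i).val g)) : (D.ts C hN).Sym κ n := by
  let κ' : T →ₐ[ZMod p] T := alg ((κ.comp T.val.toRingHom).codRestrict T fun t => h1 _ t.2)
  refine ⟨κ', fun _ => rfl, fun U _ _ τ k hτ => ?_⟩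
  have hτ' : p ^ M • n • τ = 0 := by rw [smul_comm, hτ, smul_zero]
  exact D.ext (fun t ht => (D.mv_bot C hτ k _ (h0 _ ht)).trans 
    (D.mv_bot C hτ' (k.comp κ') t ht).symm)
    fun i => (h2 κ' (fun _ => rfl) U τ k hτ i).trans (D.mv_x C hτ' (k.comp κ') i).symm

end CD

end P261.RT
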