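import Vale.Agent.P261Z.Ig.Evo

/-!
# P261Z, block N6: evaluation of power series at nilpotent elements
-/

noncomputable section

namespace P261.RT

open MvPowerSeries Vale.Agent.P261Z.Ev P261.Ig

variable {B B' U U' σ τ : Type} [CommRing B] [CommRing B'] [CommRing U] [CommRing U'] [Finite σ]
  [Finite τ]

theorem complete_nil {y : σ → U} (h : ∀ i, IsNilpotent (y i)) :
    IsAdicComplete (Ideal.span (Set.range y)) U := by
  obtain ⟨N, hN⟩ := (Ideal.FG.isNilpotent_iff_le_nilradical
    (Submodule.fg_span (Set.finite_range y))).2 (Ideal.span_le.2 (by rintro _ ⟨i, rfl⟩; exact h i))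
  exact complete_of_pow (I := ⊥) bot_le hN.le

omit [Finite σ] in
theorem mem_sp (y : σ → U) (i : σ) : y i ∈ Ideal.span (Set.range y) := Ideal.subset_span ⟨i, rfl⟩

open Classical in
/-- evaluation at nilpotent elements -/
def evN (φ : B →+* U) (y : σ → U) : MvPowerSeries σ B →+* U :=
  if h : ∀ i, IsNilpotent (y i) then
    have := complete_nil h
    ev (Ideal.span (Set.range y)) φ y
  else φ.comp constantCoeff

variable {φ : B →+* U} {y : σ → U}

@[simp] theorem evN_C (r : B) : evN φ y (C r) = φ r := by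
  unfold evN
  split_ifs <;> simp

theorem evN_X (h : ∀ i, IsNilpotent (y i)) (i : σ) : evN φ y (X i) = y i := by
  have := complete_nil h
  rw [evN, dif_pos h]
  exact ev_X _ (mem_sp y) i

theorem eq_evN (h : ∀ i, IsNilpotent (y i)) (E : MvPowerSeries σ B →+* U)
    (hC : ∀ r, E (C r) = φ r) (hX : ∀ i, E (X i) = y i) (g : MvPowerSeries σ B) :
    E g = evN φ y g := by
  have := complete_nil h
  rw [evN, dif_pos h]
  exact eq_ev _ E hC hX (mem_sp y) g

theorem map_evN (h : ∀ i, IsNilpotent (y i)) (Ψ : U →+* U') (g : MvPowerSeries σ B) :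
    Ψ (evN φ y g) = evN (Ψ.comp φ) (fun i => Ψ (y i)) g :=
  eq_evN (fun i => (h i).map Ψ) (Ψ.comp (evN φ y)) (fun r => by simp)
    (fun i => by rw [RingHom.comp_apply, evN_X h]) g

theorem evN_map (h : ∀ i, IsNilpotent (y i)) (e : B' →+* B) (g : MvPowerSeries σ B') :
    evN φ y (map e g) = evN (φ.comp e) y g :=
  eq_evN h ((evN φ y).comp (map e)) (fun r => by simp)
    (fun i => by rw [RingHom.comp_apply, map_X, evN_X h]) g

theorem evN_mem_pow (h : ∀ i, IsNilpotent (y i)) {n : ℕ} {g : MvPowerSeries σ B}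
    (hg : g ∈ IX σ B ^ n) : evN φ y g ∈ Ideal.span (Set.range y) ^ n :=
  map_mem_pow _ (fun i => by rw [evN_X h]; exact mem_sp y i) hg

theorem evN_mem (h : ∀ i, IsNilpotent (y i)) {g : MvPowerSeries σ B} (hg : constantCoeff g = 0) :
    evN φ y g ∈ Ideal.span (Set.range y) := by
  simpa using evN_mem_pow (n := 1) h (by simpa using mem_IX.2 hg)

theorem evN_nil (h : ∀ i, IsNilpotent (y i)) {g : MvPowerSeries σ B} (hg : constantCoeff g = 0) :
    IsNilpotent (evN φ y g) :=
  (Ideal.span_le (I := nilradical U)).2 (by rintro _ ⟨i, rfl⟩; exact h i) (evN_mem h hg)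

theorem evN_subst (h : ∀ i, IsNilpotent (y i)) {a : τ → MvPowerSeries σ B}
    (ha : ∀ s, constantCoeff (a s) = 0) (g : MvPowerSeries τ B) :
    evN φ y (subst a g) = evN φ (fun s => evN φ y (a s)) g := by
  have hs := hasSubst_of_constantCoeff_zero ha
  rw [← substAlgHom_apply hs]
  exact eq_evN (fun s => evN_nil h (ha s)) ((evN φ y).comp (substAlgHom hs).toRingHom)
    (fun r => (congrArg (evN φ y) ((substAlgHom hs).commutes r)).trans (evN_C r))
    (fun s => congrArg (evN φ y) (substAlgHom_X hs s)) g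

/-- the values lie in every subring which contains the coefficients and the point -/
theorem evN_mem_subring (h : ∀ i, IsNilpotent (y i)) (Λ : Subring U) (hy : ∀ i, y i ∈ Λ)
    {g : MvPowerSeries σ B} (hg : ∀ d, φ (coeff d g) ∈ Λ) : evN φ y g ∈ Λ := by
  obtain ⟨g', rfl⟩ : ∃ g' : MvPowerSeries σ (Λ.comap φ), map (Λ.comap φ).subtype g' = g :=
    ⟨fun d => ⟨coeff d g, hg d⟩, MvPowerSeries.ext fun _ => rfl⟩
  have := map_evN (φ := (φ.comp (Λ.comap φ).subtype).codRestrict Λ fun x => x.2)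
    (y := fun i => ⟨y i, hy i⟩) (fun i => (h i).imp fun _ e => Subtype.ext e) Λ.subtype g'
  rw [evN_map h]
  exact this ▸ Subtype.property _

theorem coeff_of_mem_pow {n : ℕ} {g : MvPowerSeries σ B} (hg : g ∈ IX σ B ^ n) {d : σ →₀ ℕ}
    (hd : d.degree < n) : coeff d g = 0 := by
  refine coeff_of_lt_order (lt_of_lt_of_le (Nat.cast_lt.2 hd) ?_)
  clear hd
  induction n generalizing g with
  | zero => simp
  | succ n ih =>
    rw [pow_succ] at hg
    refine Submodule.mul_induction_on hg (fun a ha b hb => ?_) fun a b ha hb =>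
      (le_min ha hb).trans min_order_le_add
    exact le_trans (by
      rw [Nat.cast_succ]
      exact add_le_add (ih ha) (one_le_order_iff_constCoeff_eq_zero.2 (mem_IX.1 hb))) le_order_mul

/-- identities in bounded degree descend along injective maps -/
theorem evN_congr {e : B →+* B'} (he : Function.Injective e) {n : ℕ} {a b : MvPowerSeries σ B}
    (hab : ∀ (U : Type) [CommRing U] (ι : B' →+* U) (y : σ → U), (∀ i, IsNilpotent (y i)) →
      Ideal.span (Set.range y) ^ n = ⊥ → evN (ι.comp e) y a = evN (ι.comp e) y b)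
    (h : ∀ i, IsNilpotent (y i)) (hn : Ideal.span (Set.range y) ^ n = ⊥) :
    evN φ y a = evN φ y b := by
  let π := Ideal.Quotient.mk (IX σ B' ^ n)
  have h1 : ∀ i, IsNilpotent (π (X i)) := fun i =>
    ⟨n, by rw [← map_pow]; exact Ideal.Quotient.eq_zero_iff_mem.2 (Ideal.pow_mem_pow (X_mem i) n)⟩
  have h2 := hab _ (π.comp C) (fun i => π (X i)) h1 (by
    rw [show (Set.range fun i => π (X i)) = π '' Set.range X from Set.range_comp π X,
      ← Ideal.map_span, ← Ideal.map_pow]
    exact Ideal.map_quotient_self _)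
  rw [← evN_map h1 e a, ← evN_map h1 e b, ← eq_evN h1 π (fun _ => rfl) fun _ => rfl,
    ← eq_evN h1 π (fun _ => rfl) fun _ => rfl, Ideal.Quotient.eq, ← map_sub] at h2
  have h3 := evN_mem_pow (φ := φ) h (mem_pow n (a - b) fun d hd =>
    he ((coeff_of_mem_pow h2 hd).trans (map_zero e).symm))
  rwa [hn, Ideal.mem_bot, map_sub, sub_eq_zero] at h3

theorem evO_eq_evN {m : Ideal B} [IsNoetherianRing B] [IsAdicComplete m B] [Algebra B U]
    (h : ∀ i, IsNilpotent (y i)) (g : MvPowerSeries σ B) :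
    evO m y g = evN (algebraMap B U) y g :=
  eq_evN h _ (evO_C y) (evO_X fun i => IsN.of_nilpotent (h i)) g

/-- evaluation in one variable -/
def evN1 (φ : B →+* U) (x : U) : PowerSeries B →+* U := evN φ fun _ : Unit => x

variable {x : U}

theorem evN1_X (h : IsNilpotent x) : evN1 φ x (PowerSeries.X : PowerSeries B) = x :=
  evN_X (fun _ => h) ()

@[simp] theorem evN1_C (r : B) : evN1 φ x (PowerSeries.C r) = φ r := evN_C r

theorem map_evN1 (h : IsNilpotent x) (Ψ : U →+* U') (g : PowerSeries B) :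
    Ψ (evN1 φ x g) = evN1 (Ψ.comp φ) (Ψ x) g := map_evN (fun _ => h) Ψ g

theorem evN1_map (h : IsNilpotent x) (e : B' →+* B) (g : PowerSeries B') :
    evN1 φ x (PowerSeries.map e g) = evN1 (φ.comp e) x g := evN_map (fun _ => h) e g

theorem evN_subst1 (h : ∀ i, IsNilpotent (y i)) {a : MvPowerSeries σ B} (ha : constantCoeff a = 0)
    (g : PowerSeries B) : evN φ y (PowerSeries.subst a g) = evN1 φ (evN φ y a) g :=
  evN_subst h (fun _ => ha) g

theorem evN1_subst (h : IsNilpotent x) {a : PowerSeries B}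
    (ha : PowerSeries.constantCoeff a = 0) (g : PowerSeries B) :
    evN1 φ x (PowerSeries.subst a g) = evN1 φ (evN1 φ x a) g := evN_subst1 (fun _ => h) ha g

theorem evN1_dvd (h : IsNilpotent x) {g : PowerSeries B} (hg : PowerSeries.constantCoeff g = 0) :
    x ∣ evN1 φ x g := by
  obtain ⟨r, rfl⟩ := PowerSeries.X_dvd_iff.2 hg
  rw [map_mul, evN1_X h]
  exact dvd_mul_right _ _

theorem evN1_pow {n : ℕ} (h : x ^ n = 0) {g : PowerSeries B}
    (hg : PowerSeries.constantCoeff g = 0) : evN1 φ x g ^ n = 0 :=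
  zero_dvd_iff.1 (h ▸ pow_dvd_pow_of_dvd (evN1_dvd ⟨n, h⟩ hg) n)

theorem evN1_trunc {n : ℕ} (h : x ^ n = 0) {g g' : PowerSeries B}
    (hg : ∀ d < n, PowerSeries.coeff d g = PowerSeries.coeff d g') : evN1 φ x g = evN1 φ x g' := by
  obtain ⟨r, e⟩ := (PowerSeries.X_pow_dvd_iff (n := n) (φ := g - g')).2 fun d hd => by
    rw [map_sub, hg d hd, sub_self]
  rw [← sub_eq_zero, ← map_sub, e, map_mul, map_pow, evN1_X ⟨n, h⟩, h, zero_mul]

theorem evN1_mem (h : IsNilpotent x) (Λ : Subring U) (hx : x ∈ Λ) {g : PowerSeries B}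
    (hg : ∀ d, φ (PowerSeries.coeff d g) ∈ Λ) : evN1 φ x g ∈ Λ :=
  evN_mem_subring (fun _ => h) Λ (fun _ => hx) fun d => by
    rw [Finsupp.unique_single d]
    exact hg _

theorem span_pair_pow {a b : U} {N n : ℕ} (ha : a ^ N = 0) (hb : b ^ N = 0) (hn : 2 * N ≤ n) :
    Ideal.span (Set.range ![a, b]) ^ n = ⊥ := by
  rw [Matrix.range_cons, Matrix.range_cons, Matrix.range_empty, Set.union_empty, Ideal.span_union]
  refine eq_bot_iff.2 ((Ideal.pow_le_pow_right (two_mul N ▸ hn)).trans
    (Ideal.sup_pow_add_le_pow_sup_pow.trans ?_))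
  simp [Ideal.span_singleton_pow, ha, hb]

theorem span_one_pow {n : ℕ} (h : x ^ n = 0) :
    Ideal.span (Set.range fun _ : Unit => x) ^ n = ⊥ := by
  simp [Ideal.span_singleton_pow, h]

end P261.RT
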