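import Vale.Agent.P261Z.Ig.FD

/-!
# P261, block N6: torsion points of the law of height `h`
-/

noncomputable section

namespace P261.Ig

variable {p h : ℕ} [hp : Fact p.Prime] {S : Type} [CommRing S] [Algebra (ZMod p) S]

variable (p h S) in
/-- the points of the law of height `h` -/
abbrev PH1 : Type := Pt S (⊥ : Ideal (ZMod p)) (HL p h (ZMod p))

theorem PH1.nil (a : PH1 p h S) : IsNilpotent a.val := by
  obtain ⟨_, n, hn⟩ := a.isN
  rw [Ideal.map_bot, Ideal.mem_bot] at hn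
  exact ⟨n, congrArg Subtype.val hn⟩

theorem PH1.val_pp (hh : h ≠ 0) (m : ℕ) (a : PH1 p h S) :
    (p ^ m • a).val = a.val ^ (p ^ h) ^ m := by
  induction m with
  | zero => rw [pow_zero, pow_zero, one_smul, pow_one]
  | succ m ih =>
    rw [pow_succ', mul_smul, Pt.val_nsmul, HL_p (ZMod.natCast_self p) hh, map_pow,
      evO1_X (Pt.isN _), ih, ← pow_mul, ← pow_succ]

theorem PH1.tor (hh : h ≠ 0) (m : ℕ) (a : PH1 p h S) :
    p ^ m • a = 0 ↔ a.val ^ (p ^ h) ^ m = 0 := by
  rw [← PH1.val_pp hh, Pt.ext_iff, Pt.val_zero]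

end P261.Ig
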